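import Crest.Agent.Helper75.MC.Defs
import Crest.Agent.Helper39.L1Cut

/-!
# S0171 — packages WP-A0 (`real_cut_decomp`) and WP-A1 (`exists_cut_model`), helper39

Exactly the statements of `Crest.Agent.Helper75.MC.Spec`, proved from
`Crest.Agent.Helper39.cut1` / `Crest.Agent.Helper39.l1_cut` (file `Helper39/L1Cut.lean`).
(`Helper75.MC.ind` is written out in full here because inside this namespace the bare name `ind`
would resolve to the definitionally equal `Crest.Agent.Helper39.ind`.)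
-/

set_option autoImplicit false

namespace Crest.Agent.Helper39.MC

open Finset Crest.Agent.Helper75.MC

variable {n : ℕ}

theorem ind_eq (T : Finset (Fin n)) (i : Fin n) :
    Helper75.MC.ind T i = Crest.Agent.Helper39.ind T i := rfl

/-! ## WP-A0 : cut decomposition of finitely many reals -/

theorem real_cut_decomp (ξ : Fin n → ℝ) :
    ∃ μ : Finset (Fin n) → ℝ, (∀ T, 0 ≤ μ T) ∧
      (∀ T, μ T ≤ ∑ i, ∑ j, |ξ i - ξ j|) ∧
      (∀ i j, ξ i - ξ j = ∑ T, μ T * (Helper75.MC.ind T i - Helper75.MC.ind T j)) ∧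
      (∀ i j, ∑ T, μ T * |Helper75.MC.ind T i - Helper75.MC.ind T j| = |ξ i - ξ j|) := by
  obtain ⟨μ, h0, h1, h2, h3⟩ := Crest.Agent.Helper39.cut1 n ξ
  refine ⟨μ, h0, h1, ?_, ?_⟩
  · intro i j
    rw [h2 i j]
    rfl
  · intro i j
    rw [h3 i j]
    rfl

/-! ## WP-A1 : the finite cut model of `n` points of ℓ₁ -/

theorem exists_cut_model (x : Fin n → lp (fun _ : ℕ => ℝ) 1) :
    ∃ lam : Finset (Fin n) → ℝ, (∀ T, 0 ≤ lam T) ∧
      (∀ i j, dist (x i) (x j) = cd lam i j) ∧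
      (∀ g : Fin n → Finset (Fin n) → ℝ, ∃ y : Fin n → lp (fun _ : ℕ => ℝ) 1,
          (∀ i, dist (x i) (y i) ≤ ∑ T, lam T * |Helper75.MC.ind T i - g i T|) ∧
          (∀ i j, dist (y i) (y j) ≤ ∑ T, lam T * |g i T - g j T|)) := by
  obtain ⟨lam, h0, h1, h2⟩ := Crest.Agent.Helper39.l1_cut n x
  refine ⟨lam, h0, ?_, ?_⟩
  · intro i j
    rw [h1 i j]
    rfl
  · intro g
    obtain ⟨y, hy1, hy2⟩ := h2 g
    exact ⟨y, fun i => hy2 i, hy1⟩

end Crest.Agent.Helper39.MC
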